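import Vale.Agent.P210.Bdl.B1

namespace Vale.Agent.Results.P210.ConformallyFlat

open Vale.Agent.P210

theorem result :
    ∀ n : ℕ, 3 ≤ n → ∃ C : ℝ,
      ∀ (Ω : Set (E n)) (g : E n → Matrix (Fin n) (Fin n) ℝ),
        IsOpen Ω → IsRiemMetricOn Ω g →
        (∀ x ∈ Ω, ∃ c : ℝ, g x = c • (1 : Matrix (Fin n) (Fin n) ℝ)) →
        IsCompleteOn Ω g → (∀ x ∈ Ω, 1 ≤ scal g x) →
        UrysohnWidthLE Ω (rdist Ω g) (n - 2) C ∧ UrysohnWidthLE Ω (rdist Ω g) (n / 2) C := by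
  intro n hn
  obtain ⟨C₁, h₁⟩ := width_of_flat n (n - 2) hn (by omega)
  obtain ⟨C₂, h₂⟩ := width_of_flat n (n / 2) hn (by omega)
  refine ⟨max C₁ C₂, ?_⟩
  intro Ω g hΩ hg hflat hcomp hscal
  exact ⟨(h₁ Ω g hΩ hg hflat hcomp hscal).mono (le_max_left _ _),
    (h₂ Ω g hΩ hg hflat hcomp hscal).mono (le_max_right _ _)⟩

end Vale.Agent.Results.P210.ConformallyFlat
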